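import Vale.Agent.P281.H702.TS.Seg

/-!
# P281, project T-HK (helper702): the holomorphic Poincaré lemma for 2-forms, with parameters
-/

open Set Filter Metric MeasureTheory Vale.Agent.P272.K
open scoped Topology ContDiff ComplexConjugate ComplexOrder

noncomputable section

set_option maxSynthPendingDepth 3

namespace Vale.Agent.P281.H702.HK

open Vale.Agent.P281.H64.TK Vale.Agent.P281.H64.TK.TS Vale.Agent.P281.H702.TS

section
variable {E F : Type*} [NormedAddCommGroup E] [NormedSpace ℂ E] [FiniteDimensional ℂ E]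
  [NormedAddCommGroup F] [NormedSpace ℂ F] [CompleteSpace F]

/-- The derivative of an integral which depends holomorphically on parameters. -/
theorem hasFDerivAt_segInt {G : E × ℂ → F} {x₀ : E}
    (h : ∀ τ ∈ Icc (0 : ℝ) 1, AnalyticAt ℂ G (x₀, (τ : ℂ))) :
    HasFDerivAt (fun x => ∫ τ in (0 : ℝ)..1, G (x, (τ : ℂ)))
      (∫ τ in (0 : ℝ)..1, (fderiv ℂ G (x₀, (τ : ℂ))).comp (ContinuousLinearMap.inl ℂ E ℂ)) x₀ := by
  have : ProperSpace E := FiniteDimensional.proper ℂ E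
  have hKc : IsCompact ((fun τ : ℝ => (τ : ℂ)) '' Icc 0 1) :=
    isCompact_Icc.image Complex.continuous_ofReal
  obtain ⟨U, W, hU, hW, h1, h2, h3⟩ := generalized_tube_lemma (isCompact_singleton (x := x₀)) hKc
    (isOpen_analyticAt ℂ G) (by
      rintro ⟨x, t⟩ ⟨hx, τ, hτ, rfl⟩
      rw [mem_singleton_iff] at hx
      simp only at hx
      subst hx
      exact h τ hτ)
  have hG : DifferentiableOn ℂ G (U ×ˢ W) := fun q hq =>
    (h3 hq : AnalyticAt ℂ G q).differentiableAt.differentiableWithinAt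
  have hsW : ∀ τ ∈ Icc (0 : ℝ) 1, (τ : ℂ) ∈ W := fun τ hτ => h2 ⟨τ, hτ, rfl⟩
  have hx₀ : x₀ ∈ U := h1 rfl
  have hUW : IsOpen (U ×ˢ W) := hU.prod hW
  obtain ⟨r, hr, hrU⟩ : ∃ r > 0, closedBall x₀ (2 * r) ⊆ U := by
    obtain ⟨r, hr, h⟩ := Metric.isOpen_iff.1 hU x₀ hx₀
    exact ⟨r / 4, by positivity, (closedBall_subset_ball (by linarith)).trans h⟩
  set K : Set ℂ := (fun τ : ℝ => (τ : ℂ)) '' Icc 0 1 with hK
  have hKW : K ⊆ W := by
    rintro _ ⟨τ, hτ, rfl⟩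
    exact hsW τ hτ
  have hcomp : IsCompact (closedBall x₀ (2 * r) ×ˢ K) := (isCompact_closedBall _ _).prod hKc
  have hsub : closedBall x₀ (2 * r) ×ˢ K ⊆ U ×ˢ W := prod_mono hrU hKW
  obtain ⟨C, hC⟩ := hcomp.exists_bound_of_continuousOn (hG.continuousOn.mono hsub)
  have hmem : ∀ τ ∈ uIoc (0 : ℝ) 1, (τ : ℂ) ∈ K := by
    intro τ hτ
    rw [uIoc_of_le zero_le_one] at hτ
    exact ⟨τ, ⟨hτ.1.le, hτ.2⟩, rfl⟩
  have hdG : ∀ x ∈ ball x₀ (2 * r), ∀ t ∈ K,
      HasFDerivAt (fun x => G (x, t))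
        ((fderiv ℂ G (x, t)).comp (ContinuousLinearMap.inl ℂ E ℂ)) x := by
    intro x hx t ht
    have h1 : DifferentiableAt ℂ G (x, t) :=
      hG.differentiableAt (hUW.mem_nhds ⟨hrU (ball_subset_closedBall hx), hKW ht⟩)
    have h2 : HasFDerivAt (fun x : E => (x, t)) (ContinuousLinearMap.inl ℂ E ℂ) x :=
      hasFDerivAt_prodMk_left x t
    exact h1.hasFDerivAt.comp x h2
  have hbound : ∀ x ∈ ball x₀ r, ∀ t ∈ K,
      ‖(fderiv ℂ G (x, t)).comp (ContinuousLinearMap.inl ℂ E ℂ)‖ ≤ C / r := by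
    intro x hx t ht
    have hxb : ball x r ⊆ ball x₀ (2 * r) := by
      intro y hy
      rw [mem_ball] at hx hy ⊢
      calc dist y x₀ ≤ dist y x + dist x x₀ := dist_triangle _ _ _
        _ < 2 * r := by linarith
    have hx2 : x ∈ ball x₀ (2 * r) := hxb (mem_ball_self hr)
    rw [← (hdG x hx2 t ht).fderiv]
    apply MF.norm_fderiv_le_of_ball hr
    · intro y hy
      exact (hdG y (hxb hy) t ht).differentiableAt.differentiableWithinAt
    · intro y hy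
      exact hC (y, t) ⟨ball_subset_closedBall (hxb hy), ht⟩
  have hcontD : ContinuousOn (fderiv ℂ G) (U ×ˢ W) :=
    MF.continuousOn_fderiv_of_differentiableOn hUW hG
  have key := hasFDerivAt_integral_of_dominated_of_fderiv_le
    (μ := MeasureTheory.volume.restrict (Set.uIoc (0 : ℝ) 1))
    (F := fun (x : E) (τ : ℝ) => G (x, (τ : ℂ)))
    (F' := fun (x : E) (τ : ℝ) =>
      (fderiv ℂ G (x, (τ : ℂ))).comp (ContinuousLinearMap.inl ℂ E ℂ))
    (x₀ := x₀) (s := ball x₀ r) (bound := fun _ => C / r) (𝕜 := ℂ)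
    (ball_mem_nhds x₀ hr) ?_ ?_ ?_ ?_ ?_ ?_
  · simp only [intervalIntegral.integral_of_le zero_le_one, Set.uIoc_of_le zero_le_one] at key ⊢
    exact key
  · filter_upwards [ball_mem_nhds x₀ hr] with x hx
    apply ContinuousOn.aestronglyMeasurable _ measurableSet_uIoc
    refine hG.continuousOn.comp (by fun_prop) fun τ hτ => ?_
    exact ⟨hrU (ball_subset_closedBall (ball_subset_ball (by linarith) hx)), hKW (hmem τ hτ)⟩
  · have hci : ContinuousOn (fun τ : ℝ => G (x₀, (τ : ℂ))) (uIcc 0 1) := by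
      refine hG.continuousOn.comp (by fun_prop) fun τ hτ => ?_
      rw [uIcc_of_le zero_le_one] at hτ
      exact ⟨hx₀, hsW τ hτ⟩
    have := hci.intervalIntegrable (μ := volume)
    rw [intervalIntegrable_iff] at this
    exact this
  · apply ContinuousOn.aestronglyMeasurable _ measurableSet_uIoc
    have h1 : ContinuousOn (fun τ : ℝ => fderiv ℂ G (x₀, (τ : ℂ))) (Set.uIoc 0 1) := by
      refine hcontD.comp (by fun_prop) fun τ hτ => ?_
      exact ⟨hx₀, hKW (hmem τ hτ)⟩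
    exact h1.clm_comp continuousOn_const
  · refine (ae_restrict_iff' measurableSet_uIoc).2 (Eventually.of_forall fun τ hτ x hx => ?_)
    exact hbound x hx _ (hmem τ hτ)
  · rw [Set.uIoc_of_le zero_le_one]
    exact MeasureTheory.integrable_const _
  · refine (ae_restrict_iff' measurableSet_uIoc).2 (Eventually.of_forall fun τ hτ x hx => ?_)
    exact hdG x (ball_subset_ball (by linarith) hx) _ (hmem τ hτ)

end

/-- complex bilinear forms -/
abbrev B2 (d : ℕ) : Type := Cm d →L[ℂ] Cm d →L[ℂ] ℂ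

section
variable {p d : ℕ}

/-- The radial primitive of a family of 2-forms on a ball around `0`. -/
def rad (A : Cm p × Cm d → B2 d) (q : Cm p × Cm d) : Cm d →L[ℂ] ℂ :=
  ∫ τ in (0 : ℝ)..1, (τ : ℂ) • A (q.1, (τ : ℂ) • q.2) q.2

theorem smul_mem_b {z : Cm d} {r : ℝ} (hz : z ∈ ball (0 : Cm d) r) {τ : ℝ} (hτ : τ ∈ Icc (0 : ℝ) 1) :
    (τ : ℂ) • z ∈ ball (0 : Cm d) r := by
  rw [mem_ball_zero_iff] at hz ⊢
  rw [norm_smul, Complex.norm_real, Real.norm_of_nonneg hτ.1]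
  exact (mul_le_of_le_one_left (norm_nonneg _) hτ.2).trans_lt hz

theorem app_an {A : Cm p × Cm d → B2 d} {r : ℝ} {t : Cm p}
    (hA : ∀ z ∈ ball (0 : Cm d) r, AnalyticAt ℂ A (t, z)) {z : Cm d} (hz : z ∈ ball (0 : Cm d) r)
    {τ : ℝ} (hτ : τ ∈ Icc (0 : ℝ) 1) :
    AnalyticAt ℂ (fun q : (Cm p × Cm d) × ℂ => q.2 • A (q.1.1, q.2 • q.1.2) q.1.2)
      ((t, z), (τ : ℂ)) := by
  have h0 : AnalyticAt ℂ (fun q : (Cm p × Cm d) × ℂ => q.1.2) ((t, z), (τ : ℂ)) :=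
    ((ContinuousLinearMap.snd ℂ (Cm p) (Cm d)).comp
      (ContinuousLinearMap.fst ℂ (Cm p × Cm d) ℂ)).analyticAt _
  have h1 : AnalyticAt ℂ (fun q : (Cm p × Cm d) × ℂ => q.1.1) ((t, z), (τ : ℂ)) :=
    ((ContinuousLinearMap.fst ℂ (Cm p) (Cm d)).comp
      (ContinuousLinearMap.fst ℂ (Cm p × Cm d) ℂ)).analyticAt _
  have h2 : AnalyticAt ℂ (fun q : (Cm p × Cm d) × ℂ => q.2) ((t, z), (τ : ℂ)) := analyticAt_snd
  have h3 : AnalyticAt ℂ (fun q : (Cm p × Cm d) × ℂ => A (q.1.1, q.2 • q.1.2))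
      ((t, z), (τ : ℂ)) :=
    AnalyticAt.fun_comp (g := A) (hA _ (smul_mem_b hz hτ)) (AnalyticAt.prod h1 (h2.smul h0))
  have h4 : AnalyticAt ℂ (fun q : (Cm p × Cm d) × ℂ => A (q.1.1, q.2 • q.1.2) q.1.2)
      ((t, z), (τ : ℂ)) :=
    AnalyticAt.fun_comp (g := fun x : B2 d × Cm d => x.1 x.2)
      ((ContinuousLinearMap.id ℂ (B2 d)).analyticAt_bilinear _) (AnalyticAt.prod h3 h0)
  exact h2.smul h4

theorem rad_analytic {A : Cm p × Cm d → B2 d} {r : ℝ} {t : Cm p}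
    (hA : ∀ z ∈ ball (0 : Cm d) r, AnalyticAt ℂ A (t, z)) {z : Cm d}
    (hz : z ∈ ball (0 : Cm d) r) : AnalyticAt ℂ (rad A) (t, z) :=
  analyticAt_segInt (G := fun q : (Cm p × Cm d) × ℂ => q.2 • A (q.1.1, q.2 • q.1.2) q.1.2)
    fun _ hτ => app_an hA hz hτ

/-- The value of a bilinear form. -/
def ev2 (u v : Cm d) : B2 d →L[ℂ] ℂ :=
  (ContinuousLinearMap.apply ℂ ℂ v).comp (ContinuousLinearMap.apply ℂ (Cm d →L[ℂ] ℂ) u)

theorem ev2_apply (u v : Cm d) (a : B2 d) : ev2 u v a = a u v := rfl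

theorem ev2_fd {a : Cm d → B2 d} {z : Cm d} (ha : AnalyticAt ℂ a z) (u v : Cm d) :
    HasFDerivAt (fun w => a w u v) ((ev2 u v).comp (fderiv ℂ a z)) z :=
  (ev2 u v).hasFDerivAt.comp z ha.differentiableAt.hasFDerivAt

theorem alt_fd {a : Cm d → B2 d} {z : Cm d} (ha : AnalyticAt ℂ a z)
    (h : ∀ᶠ w in 𝓝 z, ∀ u v, a w u v = - a w v u) (x y y' : Cm d) :
    fderiv ℂ a z x y y' = - fderiv ℂ a z x y' y := by
  have e2 : (fun w => a w y y') =ᶠ[𝓝 z] fun w => - a w y' y := h.mono fun w hw => hw y y'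
  have e3 := ((ev2_fd ha y y').congr_of_eventuallyEq e2.symm).unique (ev2_fd ha y' y).neg
  have e4 := congrArg (fun L : Cm d →L[ℂ] ℂ => L x) e3
  simpa [ev2_apply] using e4

/-- The family of forms on the fibre, at the points of a segment. -/
theorem a_an {A : Cm p × Cm d → B2 d} {r : ℝ} {t : Cm p}
    (hA : ∀ z ∈ ball (0 : Cm d) r, AnalyticAt ℂ A (t, z)) {z : Cm d}
    (hz : z ∈ ball (0 : Cm d) r) : AnalyticAt ℂ (fun z => A (t, z)) z :=
  AnalyticAt.fun_comp (g := A) (hA z hz) (AnalyticAt.prod analyticAt_const analyticAt_id)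

theorem app_an' {A : Cm p × Cm d → B2 d} {r : ℝ} {t : Cm p}
    (hA : ∀ z ∈ ball (0 : Cm d) r, AnalyticAt ℂ A (t, z)) {z : Cm d} (hz : z ∈ ball (0 : Cm d) r)
    {τ : ℝ} (hτ : τ ∈ Icc (0 : ℝ) 1) :
    AnalyticAt ℂ (fun q : Cm d × ℂ => q.2 • A (t, q.2 • q.1) q.1) (z, (τ : ℂ)) :=
  AnalyticAt.fun_comp
    (g := fun q : (Cm p × Cm d) × ℂ => q.2 • A (q.1.1, q.2 • q.1.2) q.1.2)
    (f := fun q : Cm d × ℂ => ((t, q.1), q.2)) (app_an hA hz hτ)
    (AnalyticAt.prod (AnalyticAt.prod analyticAt_const analyticAt_fst) analyticAt_snd)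

/-- The derivative of the integrand. -/
theorem app_fd {a : Cm d → B2 d} {z : Cm d} {τ : ℂ} (h : AnalyticAt ℂ a (τ • z))
    (h' : DifferentiableAt ℂ (fun q : Cm d × ℂ => q.2 • a (q.2 • q.1) q.1) (z, τ)) (x y : Cm d) :
    ((fderiv ℂ (fun q : Cm d × ℂ => q.2 • a (q.2 • q.1) q.1) (z, τ)).comp
        (ContinuousLinearMap.inl ℂ (Cm d) ℂ)) x y =
      τ * (τ * fderiv ℂ a (τ • z) x z y + a (τ • z) x y) := by
  have h4 : HasFDerivAt (fun x : Cm d => (x, τ)) (ContinuousLinearMap.inl ℂ (Cm d) ℂ) z :=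
    hasFDerivAt_prodMk_left z _
  have h5 := h'.hasFDerivAt.comp z h4
  have h6 : HasFDerivAt (fun x : Cm d => τ • x)
      (τ • ContinuousLinearMap.id ℂ (Cm d)) z := (hasFDerivAt_id z).const_smul τ
  have h7 : HasFDerivAt a (fderiv ℂ a (τ • z)) (τ • z) := h.differentiableAt.hasFDerivAt
  have h8 : HasFDerivAt (fun x : Cm d => a (τ • x))
      ((fderiv ℂ a (τ • z)).comp (τ • ContinuousLinearMap.id ℂ (Cm d))) z := h7.comp z h6
  have h9 := ((h8.clm_apply (hasFDerivAt_id z)).const_smul τ)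
  have h10 := h5.unique h9
  rw [h10]
  simp only [smul_apply, add_apply, ContinuousLinearMap.comp_apply,
    ContinuousLinearMap.flip_apply, ContinuousLinearMap.id_apply, smul_eq_mul, map_smul, id_eq]
  ring

/-- The derivative of the primitive. -/
theorem rad_fd {A : Cm p × Cm d → B2 d} {r : ℝ} {t : Cm p}
    (hA : ∀ z ∈ ball (0 : Cm d) r, AnalyticAt ℂ A (t, z)) {z : Cm d}
    (hz : z ∈ ball (0 : Cm d) r) (x y : Cm d) :
    fderiv ℂ (fun z => rad A (t, z)) z x y = ∫ τ in (0 : ℝ)..1, (τ : ℂ) *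
      ((τ : ℂ) * fderiv ℂ (fun z => A (t, z)) ((τ : ℂ) • z) x z y + A (t, (τ : ℂ) • z) x y) := by
  set a : Cm d → B2 d := fun z => A (t, z) with ha
  have hG : ∀ τ ∈ Icc (0 : ℝ) 1, AnalyticAt ℂ (fun q : Cm d × ℂ => q.2 • a (q.2 • q.1) q.1)
      (z, (τ : ℂ)) := fun τ hτ => app_an' hA hz hτ
  have h1 := hasFDerivAt_segInt hG
  have h2 : fderiv ℂ (fun z => rad A (t, z)) z = _ := h1.fderiv
  have hi : IntervalIntegrable (fun τ : ℝ =>
      (fderiv ℂ (fun q : Cm d × ℂ => q.2 • a (q.2 • q.1) q.1) (z, (τ : ℂ))).comp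
        (ContinuousLinearMap.inl ℂ (Cm d) ℂ)) volume 0 1 := by
    refine ContinuousOn.intervalIntegrable ?_
    rw [uIcc_of_le zero_le_one]
    intro τ hτ
    refine ContinuousAt.continuousWithinAt ?_
    have h4 : ContinuousAt (fun q : Cm d × ℂ =>
        fderiv ℂ (fun q : Cm d × ℂ => q.2 • a (q.2 • q.1) q.1) q) (z, (τ : ℂ)) :=
      (hG τ hτ).fderiv.continuousAt
    have h5 : ContinuousAt (fun τ : ℝ => (z, (τ : ℂ))) τ := by fun_prop
    have h6 : ContinuousAt (fun τ : ℝ =>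
        fderiv ℂ (fun q : Cm d × ℂ => q.2 • a (q.2 • q.1) q.1) (z, (τ : ℂ))) τ :=
      ContinuousAt.comp (f := fun τ : ℝ => (z, (τ : ℂ))) h4 h5
    exact h6.clm_comp continuousAt_const
  rw [h2, ContinuousLinearMap.intervalIntegral_apply hi]
  have hi' : IntervalIntegrable (fun τ : ℝ =>
    ((fderiv ℂ (fun q : Cm d × ℂ => q.2 • a (q.2 • q.1) q.1) (z, (τ : ℂ))).comp
      (ContinuousLinearMap.inl ℂ (Cm d) ℂ)) x) volume 0 1 := by
    rw [intervalIntegrable_iff] at hi ⊢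
    exact (ContinuousLinearMap.apply ℂ (Cm d →L[ℂ] ℂ) x).integrable_comp hi
  rw [ContinuousLinearMap.intervalIntegral_apply hi']
  refine intervalIntegral.integral_congr fun τ hτ => ?_
  rw [uIcc_of_le zero_le_one] at hτ
  exact app_fd (a_an hA (smul_mem_b hz hτ)) (hG τ hτ).differentiableAt x y

theorem int_fd {A : Cm p × Cm d → B2 d} {r : ℝ} {t : Cm p}
    (hA : ∀ z ∈ ball (0 : Cm d) r, AnalyticAt ℂ A (t, z)) {z : Cm d}
    (hz : z ∈ ball (0 : Cm d) r) (x y : Cm d) : IntervalIntegrable (fun τ : ℝ => (τ : ℂ) *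
      ((τ : ℂ) * fderiv ℂ (fun z => A (t, z)) ((τ : ℂ) • z) x z y + A (t, (τ : ℂ) • z) x y))
      volume 0 1 := by
  set a : Cm d → B2 d := fun z => A (t, z) with ha
  refine ContinuousOn.intervalIntegrable ?_
  rw [uIcc_of_le zero_le_one]
  intro τ hτ
  refine ContinuousAt.continuousWithinAt ?_
  have h5 : ContinuousAt (fun τ : ℝ => (τ : ℂ) • z) τ := by fun_prop
  have h6 : ContinuousAt (fun τ : ℝ => a ((τ : ℂ) • z)) τ :=
    ContinuousAt.comp (f := fun τ : ℝ => (τ : ℂ) • z)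
      (a_an hA (smul_mem_b hz hτ)).continuousAt h5
  have h7 : ContinuousAt (fun τ : ℝ => fderiv ℂ a ((τ : ℂ) • z)) τ :=
    ContinuousAt.comp (f := fun τ : ℝ => (τ : ℂ) • z)
      (a_an hA (smul_mem_b hz hτ)).fderiv.continuousAt h5
  have h8 : ContinuousAt (fun τ : ℝ => (τ : ℂ)) τ := by fun_prop
  exact h8.mul ((h8.mul (((h7.clm_apply continuousAt_const).clm_apply
    continuousAt_const).clm_apply continuousAt_const)).add
    ((h6.clm_apply continuousAt_const).clm_apply continuousAt_const))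

/-- The integrand is a derivative. -/
theorem key_fd {a : Cm d → B2 d} {z : Cm d} {τ : ℝ} (ha : AnalyticAt ℂ a ((τ : ℂ) • z))
    (halt : ∀ᶠ w in 𝓝 ((τ : ℂ) • z), ∀ u v, a w u v = - a w v u) (u v : Cm d)
    (hcl : fderiv ℂ a ((τ : ℂ) • z) u v z + fderiv ℂ a ((τ : ℂ) • z) v z u +
      fderiv ℂ a ((τ : ℂ) • z) z u v = 0) :
    HasDerivAt (fun τ : ℝ => (τ : ℂ) ^ 2 * a ((τ : ℂ) • z) u v)
      ((τ : ℂ) * ((τ : ℂ) * fderiv ℂ a ((τ : ℂ) • z) u z v + a ((τ : ℂ) • z) u v) -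
        (τ : ℂ) * ((τ : ℂ) * fderiv ℂ a ((τ : ℂ) • z) v z u + a ((τ : ℂ) • z) v u)) τ := by
  have h6 : HasDerivAt (fun τ : ℝ => (τ : ℂ)) 1 τ := Complex.ofRealCLM.hasDerivAt
  have h7 : HasDerivAt (fun τ : ℝ => (τ : ℂ) • z) z τ := by simpa using h6.smul_const z
  have h9' : HasFDerivAt (𝕜 := ℝ) (fun w => a w u v)
      (((ev2 u v).comp (fderiv ℂ a ((τ : ℂ) • z))).restrictScalars ℝ) ((τ : ℂ) • z) :=
    (ev2_fd ha u v).restrictScalars ℝ
  have h9 : HasDerivAt (fun τ : ℝ => a ((τ : ℂ) • z) u v)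
      (fderiv ℂ a ((τ : ℂ) • z) z u v) τ :=
    HasFDerivAt.comp_hasDerivAt (f := fun τ : ℝ => (τ : ℂ) • z) τ h9' h7
  have h10' : HasDerivAt (fun τ : ℝ => (τ : ℂ) ^ 2) (2 * (τ : ℂ)) τ := by
    have h := h6.pow 2
    simp only [Nat.cast_ofNat, Nat.add_one_sub_one, pow_one, mul_one] at h
    exact h
  have h10 := h10'.mul h9
  refine h10.congr_deriv ?_
  have h13 := alt_fd ha halt
  have h14 : a ((τ : ℂ) • z) v u = - a ((τ : ℂ) • z) u v := halt.self_of_nhds v u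
  rw [h14]
  have h15 : fderiv ℂ a ((τ : ℂ) • z) z u v = fderiv ℂ a ((τ : ℂ) • z) u z v -
      fderiv ℂ a ((τ : ℂ) • z) v z u := by
    linear_combination hcl - h13 u v z
  rw [h15]
  ring

/-- **The Poincaré lemma**: `d (rad A) = A`, for `A` closed. -/
theorem rad_d {A : Cm p × Cm d → B2 d} {r : ℝ} {t : Cm p}
    (hA : ∀ z ∈ ball (0 : Cm d) r, AnalyticAt ℂ A (t, z))
    (halt : ∀ z ∈ ball (0 : Cm d) r, ∀ u v, A (t, z) u v = - A (t, z) v u)
    (hcl : ∀ z ∈ ball (0 : Cm d) r, ∀ u v w, fderiv ℂ (fun z => A (t, z)) z u v w +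
      fderiv ℂ (fun z => A (t, z)) z v w u + fderiv ℂ (fun z => A (t, z)) z w u v = 0)
    {z : Cm d} (hz : z ∈ ball (0 : Cm d) r) (u v : Cm d) :
    fderiv ℂ (fun z => rad A (t, z)) z u v - fderiv ℂ (fun z => rad A (t, z)) z v u =
      A (t, z) u v := by
  rw [rad_fd hA hz, rad_fd hA hz, ← intervalIntegral.integral_sub (int_fd hA hz u v)
    (int_fd hA hz v u)]
  have h6 := intervalIntegral.integral_eq_sub_of_hasDerivAt
    (f := fun τ : ℝ => (τ : ℂ) ^ 2 * A (t, (τ : ℂ) • z) u v) (a := 0) (b := 1)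
    (fun τ hτ => ?_) ((int_fd hA hz u v).sub (int_fd hA hz v u))
  · rw [h6]
    simp
  · rw [uIcc_of_le zero_le_one] at hτ
    have hzτ := smul_mem_b hz hτ
    refine key_fd (a := fun z => A (t, z)) (a_an hA hzτ) ?_ u v (hcl _ hzτ u v z)
    filter_upwards [isOpen_ball.mem_nhds hzτ] with w hw using halt w hw

end

end Vale.Agent.P281.H702.HK
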