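import Vale.Agent.P281.H83.HK.Defs
import Vale.Agent.P281.H702.HK.Poi2
import Vale.Agent.P281.H834.HK.Kfd

/-!
# P281, project T-HK (helper702): the closed 2-form of a closed holomorphic 2-form
-/

open Set Filter Metric MeasureTheory Vale.Agent.P272.K
open scoped Topology ContDiff ComplexConjugate ComplexOrder

noncomputable section

set_option maxSynthPendingDepth 3

namespace Vale.Agent.P281.H702.HK

open Vale.Agent.P281.H64.TK Vale.Agent.P281.H64.TK.TS Vale.Agent.P281.H702.TS
open Vale.Agent.P281.H83.HK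

section
variable {p d : ℕ}

theorem tf_apply (m : Matrix (Fin d) (Fin d) ℂ) (u v : Cm d) :
    tf m u v = ∑ j, ∑ k, m j k * (u j * v k) := rfl

theorem cj_apply (a : L2 d) (u v : Cm d) : cj a u v = conj (a u v) := rfl

theorem kf_eq (w : Matrix (Fin d) (Fin d) ℂ) : kf w = H834.HK.kfd w := by
  refine ContinuousLinearMap.ext fun u => ContinuousLinearMap.ext fun v => ?_
  rw [H834.HK.kfd_apply]
  rfl

/-- The complex bilinear form `dz_j ⊗ dz_k`. -/
def ejk (j k : Fin d) : B2 d :=
  (ContinuousLinearMap.proj (R := ℂ) (φ := fun _ : Fin d => ℂ) j).smulRight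
    (ContinuousLinearMap.proj (R := ℂ) (φ := fun _ : Fin d => ℂ) k)

theorem ejk_apply (j k : Fin d) (u v : Cm d) : ejk j k u v = u j * v k := rfl

/-- The complex bilinear form of a matrix. -/
def mf (m : Matrix (Fin d) (Fin d) ℂ) : B2 d := ∑ j, ∑ k, m j k • ejk j k

theorem mf_apply (m : Matrix (Fin d) (Fin d) ℂ) (u v : Cm d) :
    mf m u v = ∑ j, ∑ k, m j k * (u j * v k) := by
  simp only [mf, sum_apply, smul_apply, ejk_apply, smul_eq_mul]

theorem tf_eq (m : Matrix (Fin d) (Fin d) ℂ) (u v : Cm d) : tf m u v = mf m u v := by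
  rw [mf_apply, tf_apply]

theorem mf_alt {m : Matrix (Fin d) (Fin d) ℂ} (h : m.transpose = -m) (u v : Cm d) :
    mf m u v = - mf m v u := by
  have h' : ∀ j k, m j k = - m k j := by
    intro j k
    have := congrFun (congrFun h k) j
    simpa using this
  rw [mf_apply, mf_apply, Finset.sum_comm, ← Finset.sum_neg_distrib]
  refine Finset.sum_congr rfl fun j _ => ?_
  rw [← Finset.sum_neg_distrib]
  refine Finset.sum_congr rfl fun k _ => ?_
  rw [h' k j]
  ring

theorem mf_analytic {X : Type*} [NormedAddCommGroup X] [NormedSpace ℂ X]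
    {a : X → Matrix (Fin d) (Fin d) ℂ} {x : X} (h : ∀ j k, AnalyticAt ℂ (fun x => a x j k) x) :
    AnalyticAt ℂ (fun x => mf (a x)) x := by
  unfold mf
  exact Finset.analyticAt_fun_sum _ fun j _ => Finset.analyticAt_fun_sum _ fun k _ =>
    (h j k).smul analyticAt_const

theorem mf_fd {a : Cm d → Matrix (Fin d) (Fin d) ℂ} {z : Cm d}
    (h : ∀ j k, DifferentiableAt ℂ (fun z => a z j k) z) (u v w : Cm d) :
    fderiv ℂ (fun z => mf (a z)) z u v w =
      ∑ j, ∑ k, fderiv ℂ (fun z => a z j k) z u * (v j * w k) := by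
  have h1 : HasFDerivAt (fun z => mf (a z)) (∑ j, ∑ k,
      (fderiv ℂ (fun z => a z j k) z).smulRight (ejk j k)) z := by
    unfold mf
    exact HasFDerivAt.fun_sum fun j _ => HasFDerivAt.fun_sum fun k _ =>
      (h j k).hasFDerivAt.smul_const _
  rw [h1.fderiv]
  simp only [sum_apply, ContinuousLinearMap.smulRight_apply, smul_apply, ejk_apply, smul_eq_mul]

theorem fd_dd (f : Cm d → ℂ) (z u : Cm d) : fderiv ℂ f z u = ∑ l, dd l f z * u l := by
  conv_lhs => rw [pi_eq_sum_univ' u]
  rw [map_sum]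
  refine Finset.sum_congr rfl fun l _ => ?_
  rw [map_smul, smul_eq_mul, mul_comm]
  rfl

theorem sum_rot (F : Fin d → Fin d → Fin d → ℂ) :
    ∑ l, ∑ j, ∑ k, F l j k = ∑ k, ∑ l, ∑ j, F l j k :=
  (Finset.sum_congr rfl fun _ _ => Finset.sum_comm).trans Finset.sum_comm

theorem mf_closed {a : Cm d → Matrix (Fin d) (Fin d) ℂ} {z : Cm d}
    (h : ∀ j k, DifferentiableAt ℂ (fun z => a z j k) z)
    (hcl : ∀ j k l, dd l (fun z => a z j k) z + dd j (fun z => a z k l) z +
      dd k (fun z => a z l j) z = 0) (u v w : Cm d) :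
    fderiv ℂ (fun z => mf (a z)) z u v w + fderiv ℂ (fun z => mf (a z)) z v w u +
      fderiv ℂ (fun z => mf (a z)) z w u v = 0 := by
  have e : ∀ u v w : Cm d, fderiv ℂ (fun z => mf (a z)) z u v w =
      ∑ j, ∑ k, ∑ l, dd l (fun z => a z j k) z * (u l * v j * w k) := by
    intro u v w
    rw [mf_fd h]
    refine Finset.sum_congr rfl fun j _ => Finset.sum_congr rfl fun k _ => ?_
    rw [fd_dd, Finset.sum_mul]
    exact Finset.sum_congr rfl fun l _ => by ring
  have e2 : fderiv ℂ (fun z => mf (a z)) z v w u =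
      ∑ j, ∑ k, ∑ l, dd j (fun z => a z k l) z * (u l * v j * w k) := by
    rw [e, sum_rot]
    exact Finset.sum_congr rfl fun j _ => Finset.sum_congr rfl fun k _ =>
      Finset.sum_congr rfl fun l _ => by ring
  have e3 : fderiv ℂ (fun z => mf (a z)) z w u v =
      ∑ j, ∑ k, ∑ l, dd k (fun z => a z l j) z * (u l * v j * w k) := by
    rw [e, sum_rot, sum_rot]
    exact Finset.sum_congr rfl fun j _ => Finset.sum_congr rfl fun k _ =>
      Finset.sum_congr rfl fun l _ => by ring
  rw [e, e2, e3, ← Finset.sum_add_distrib, ← Finset.sum_add_distrib]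
  refine Finset.sum_eq_zero fun j _ => ?_
  rw [← Finset.sum_add_distrib, ← Finset.sum_add_distrib]
  refine Finset.sum_eq_zero fun k _ => ?_
  rw [← Finset.sum_add_distrib, ← Finset.sum_add_distrib]
  refine Finset.sum_eq_zero fun l _ => ?_
  rw [← add_mul, ← add_mul, hcl, zero_mul]

/-- Pull-back of a matrix. -/
theorem mf_change {m J : Matrix (Fin d) (Fin d) ℂ} {u v u' v' : Cm d}
    (hu : ∀ a, u' a = ∑ b, J a b * u b) (hv : ∀ a, v' a = ∑ b, J a b * v b) :
    mf (J.transpose * m * J) u v = mf m u' v' := by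
  have e : ∀ (m : Matrix (Fin d) (Fin d) ℂ) (u v : Cm d), mf m u v = u ⬝ᵥ m.mulVec v := by
    intro m u v
    rw [mf_apply]
    simp only [dotProduct, Matrix.mulVec, Finset.mul_sum]
    exact Finset.sum_congr rfl fun j _ => Finset.sum_congr rfl fun k _ => by ring
  have h1 : u' = J.mulVec u := funext hu
  have h2 : v' = J.mulVec v := funext hv
  rw [e, e, h1, h2, ← Matrix.mulVec_mulVec, ← Matrix.mulVec_mulVec, Matrix.dotProduct_mulVec,
    Matrix.vecMul_transpose]

/-- The real 2-form. -/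
theorem tf_smooth {a : Cm d → Matrix (Fin d) (Fin d) ℂ}
    (h : ∀ j k, DifferentiableOn ℂ (fun z => a z j k) (ball 0 3)) :
    ContDiffOn ℝ ∞ (fun z => tf (a z)) (ball (0 : Cm d) 3) := by
  refine sm2 fun u v => ?_
  simp only [tf_apply]
  refine ContDiffOn.sum fun j _ => ContDiffOn.sum fun k _ => ?_
  exact (hol_smooth (h j k)).mul contDiffOn_const

theorem tf_fd {a : Cm d → Matrix (Fin d) (Fin d) ℂ}
    (h : ∀ j k, DifferentiableOn ℂ (fun z => a z j k) (ball 0 3)) {z : Cm d}
    (hz : z ∈ ball (0 : Cm d) 3) (u v w : Cm d) :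
    fderiv ℝ (fun z => tf (a z)) z u v w = fderiv ℂ (fun z => mf (a z)) z u v w := by
  have hd : DifferentiableAt ℝ (fun z => tf (a z)) z :=
    ((tf_smooth h).contDiffAt (isOpen_ball.mem_nhds hz)).differentiableAt (by simp)
  have hc : ∀ j k, DifferentiableAt ℂ (fun z => a z j k) z := fun j k =>
    (h j k).differentiableAt (isOpen_ball.mem_nhds hz)
  rw [fd2 hd, mf_fd hc]
  simp only [tf_apply]
  have h2 : HasFDerivAt (𝕜 := ℝ) (fun z => ∑ j, ∑ k, a z j k * (v j * w k)) _ z :=
    HasFDerivAt.fun_sum fun j _ => HasFDerivAt.fun_sum fun k _ =>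
      ((hc j k).hasFDerivAt.restrictScalars ℝ).mul_const (v j * w k)
  rw [h2.fderiv]
  simp only [sum_apply, smul_apply, ContinuousLinearMap.coe_restrictScalars', smul_eq_mul]
  exact Finset.sum_congr rfl fun j _ => Finset.sum_congr rfl fun k _ => by ring

variable {E Γ : Type} [TopologicalSpace E] [Group Γ] [MulAction Γ E] {S : Sheets d E Γ}
  {s : Fin S.N → Cm d → Matrix (Fin d) (Fin d) ℂ}

/-- **A closed holomorphic 2-form is a closed 2-form.** -/
theorem hol2_cl2 (hs : Hol2 S s) : Cl2 S (ts s) := by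
  refine ⟨⟨?_, ?_, ?_⟩, ?_⟩
  · intro i z hz _
    exact (tf_smooth (hs.hol i)).contDiffAt (isOpen_ball.mem_nhds hz)
  · intro i z hz _ u v
    show tf (s i z) u v = - tf (s i z) v u
    rw [tf_eq, tf_eq]
    exact mf_alt (hs.alt i z hz) u v
  · intro i j z hz z' hz' _ ψ hψ u v
    obtain ⟨h0, h1, h2, h3, -⟩ := Tr_eq S hz hz' hψ
    have h4 := hs.change i j z hz z' hz' _ h2 h1 h3
    show tf (s i z) u v = tf (s j z') _ _
    rw [tf_eq, tf_eq, h4]
    exact mf_change (Tr_fderiv S hz hz' hψ u) (Tr_fderiv S hz hz' hψ v)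
  · intro i z hz u v w
    show fderiv ℝ (fun z => tf (s i z)) z u v w + fderiv ℝ (fun z => tf (s i z)) z v w u +
      fderiv ℝ (fun z => tf (s i z)) z w u v = 0
    rw [tf_fd (hs.hol i) hz, tf_fd (hs.hol i) hz, tf_fd (hs.hol i) hz]
    exact mf_closed (fun j k => (hs.hol i j k).differentiableAt (isOpen_ball.mem_nhds hz))
      (hs.closed i z hz) u v w

/-- The Kähler form. -/
theorem kw_cl2 {w : Fin S.N → Cm d → Matrix (Fin d) (Fin d) ℂ} (hw : Kah S w) :
    Cl2 S (kw w) := by
  have e : kw w = fun i z => H834.HK.kfd (w i z) := by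
    funext i z
    exact kf_eq _
  rw [e]
  exact H834.HK.kah_cl2 hw

theorem kw_real2 {w : Fin S.N → Cm d → Matrix (Fin d) (Fin d) ℂ} (hw : Kah S w) :
    Real2 S (kw w) := by
  have e : kw w = fun i z => H834.HK.kfd (w i z) := by
    funext i z
    exact kf_eq _
  rw [e]
  exact H834.HK.kah_real2 hw

end

end Vale.Agent.P281.H702.HK
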