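import Vale.Agent.P281.H702.HK.B1
import Vale.Agent.P281.H83.HK.Spec

/-!
# P281, project T-HK (helper83), block F2 (helper702): the periods are holomorphic; parts of I0
-/

open Set Filter Metric MeasureTheory Vale.Agent.P272.K Vale.Agent.P281.H64.TK
  Vale.Agent.P281.H64.TK.TS
open Vale.Agent.P281.H83.HK
open Vale.Agent.P281.H702.TS (sm2 fd2)
open scoped Topology ContDiff ComplexConjugate

noncomputable section

namespace Vale.Agent.P281.H702.HK

/-- **F2**: the periods are holomorphic. -/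
theorem holP2 : HolP2Stmt := by
  intro p d E Γ _ _ _ _ _ _ 𝓕 T' hT' s t₀ ht₀ n M α hd hT'o hs hα k
  exact b1 𝓕 hd hT' hT'o (fun i t ht z hz j k => hs.hol i t ht z hz j k)
    (fun i t ht z hz => (hs.gen t (hT' ht) ht).form.alt i z hz)
    (fun i t ht z hz => (hs.gen t (hT' ht) ht).form.closed i z hz) ht₀ M α hα k

section
variable {d : ℕ} {E Γ : Type} [TopologicalSpace E] [Group Γ] [MulAction Γ E] {S : Sheets d E Γ}

/-- The conjugate of a closed 2-form is closed. -/
theorem cjs_cl2 {a : Fin S.N → Cm d → L2 d} (ha : Cl2 S a) : Cl2 S (cjs a) := by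
  have hsa : ∀ i, ∀ z ∈ ball (0 : Cm d) 3, ContDiffAt ℝ ∞ (a i) z := fun i z hz =>
    ha.smooth i z hz (mem_univ _)
  have hsm : ∀ i, ContDiffOn ℝ ∞ (cjs a i) (ball (0 : Cm d) 3) := by
    intro i
    refine sm2 fun u v z hz => ContDiffAt.contDiffWithinAt ?_
    exact Complex.conjCLE.contDiff.contDiffAt.comp z
      (((hsa i z hz).clm_apply contDiffAt_const).clm_apply contDiffAt_const)
  have hfd : ∀ i, ∀ z ∈ ball (0 : Cm d) 3, ∀ u v w,
      fderiv ℝ (cjs a i) z u v w = conj (fderiv ℝ (a i) z u v w) := by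
    intro i z hz u v w
    have hd : DifferentiableAt ℝ (cjs a i) z :=
      ((hsm i).contDiffAt (isOpen_ball.mem_nhds hz)).differentiableAt (by simp)
    have hd' : DifferentiableAt ℝ (a i) z := (hsa i z hz).differentiableAt (by simp)
    rw [fd2 hd, fd2 hd']
    have h1 : HasFDerivAt (fun z => a i z v w) (fderiv ℝ (fun z => a i z v w) z) z :=
      ((hd'.clm_apply (differentiableAt_const v)).clm_apply
        (differentiableAt_const w)).hasFDerivAt
    have h2 := Complex.conjCLE.toContinuousLinearMap.hasFDerivAt.comp z h1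
    have h3 : fderiv ℝ (fun z => cjs a i z v w) z = _ := h2.fderiv
    rw [h3]
    rfl
  refine ⟨⟨?_, ?_, ?_⟩, ?_⟩
  · intro i z hz _
    exact (hsm i).contDiffAt (isOpen_ball.mem_nhds hz)
  · intro i z hz hV u v
    show conj (a i z u v) = - conj (a i z v u)
    rw [ha.alt i z hz hV u v, map_neg]
  · intro i j z hz z' hz' hV ψ hψ u v
    show conj (a i z u v) = conj (a j z' _ _)
    rw [ha.change i j z hz z' hz' hV ψ hψ u v]
  · intro i z hz u v w
    rw [hfd i z hz, hfd i z hz, hfd i z hz, ← map_add, ← map_add, ha.closed i z hz, map_zero]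

end

/-- **I0**: the forms of the theory. -/
theorem forms : FormsStmt := by
  intro d E Γ _ _ _ _ _ _ S _
  exact ⟨fun s hs => hol2_cl2 hs, fun w hw => ⟨kw_cl2 hw, kw_real2 hw⟩, fun a ha => cjs_cl2 ha⟩

end Vale.Agent.P281.H702.HK
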