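import Vale.Agent.P281.H702.HK.B1a

/-!
# P281, project T-HK (helper702), block B1-HK: the periods of a holomorphic family of closed
holomorphic 2-forms are holomorphic, in every dimension (after helper751)
-/

open Set Filter Metric MeasureTheory Vale.Agent.P272.K Vale.Agent.P281.H64.TK
  Vale.Agent.P281.H64.TK.TS
open Vale.Agent.P281.H834.TS (iv tr iv_σ iv_smooth iv_eventually iv_tendsto σ_tendsto
  tr_analyticAt tr_eq tr_eventually)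
open Vale.Agent.P281.H702.TS (seg_ftc analyticAt_segInt)
open Vale.Agent.P281.H751.TS (an_comp An cl_mem poin tends eq2 eq2_compact Good_sub3 U_open mem_eb)
open Vale.Agent.P281.H83.HK
open scoped Topology ContDiff ComplexConjugate

noncomputable section

set_option maxSynthPendingDepth 3

namespace Vale.Agent.P281.H702.HK

section
variable {p d : ℕ} {E Γ : Type} [TopologicalSpace E] [Group Γ] [Subsingleton Γ] [MulAction Γ E]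
  (𝓕 : Fam p d E Γ)

/-- The primitives are analytic along holomorphic sections, up to a function of `t`. -/
theorem an_diff {t₀ : Cm p} (ht₀ : t₀ ∈ 𝓕.T) {W : Set E} (hW : IsOpen W) {g : Cm p → E → ℂ}
    {ja jb : Fin 𝓕.N} {ba bb : Cm p × Cm d → (Cm d →L[ℂ] ℂ)} {T' : Set (Cm p)} (hT' : T' ⊆ 𝓕.T)
    (hT'o : IsOpen T') (ht' : t₀ ∈ T')
    (hba : ∀ t ∈ T', ∀ z ∈ ball (0 : Cm d) 3, AnalyticAt ℂ ba (t, z))
    (hbb : ∀ t ∈ T', ∀ z ∈ ball (0 : Cm d) 3, AnalyticAt ℂ bb (t, z))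
    (hWa : ∀ e ∈ W, ∃ w ∈ ball (0 : Cm d) 3, 𝓕.σ ja t₀ w = e)
    (hWb : ∀ e ∈ W, ∃ w ∈ ball (0 : Cm d) 3, 𝓕.σ jb t₀ w = e)
    (hg : ∀ᶠ t in 𝓝 t₀, SmOn (𝓕.at t₀ ht₀) W (g t) ∧
      IsD0 (𝓕.at t₀ ht₀) W (g t) (fun k z => bt 𝓕 ba t₀ ja t k z - bt 𝓕 bb t₀ jb t k z))
    {C : Set (Cm d)} (hC : Convex ℝ C) (hC3 : C ⊆ ball 0 3) {i₀ : Fin 𝓕.N}
    (hCW : ∀ z ∈ C, 𝓕.σ i₀ t₀ z ∈ W) {z₀ z₁ : Cm d} (hz₀ : z₀ ∈ C) (hz₁ : z₁ ∈ C)
    {i : Fin 𝓕.N} {z : Cm d} (hz : z ∈ ball (0 : Cm d) 3) (h : 𝓕.σ i t₀ z = 𝓕.σ i₀ t₀ z₁) :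
    AnalyticAt ℂ (fun t => g t (𝓕.σ i t z) - g t (𝓕.σ i₀ t z₀)) t₀ := by
  set γ : Cm p × Cm d → (Cm d →L[ℂ] ℂ) := fun q => gm 𝓕 ba i₀ ja q - gm 𝓕 bb i₀ jb q with hγ
  set θ : Cm p → Cm d := fun t => tr 𝓕 i i₀ (t, z) with hθ
  have hz₁3 := hC3 hz₁
  have hθa : AnalyticAt ℂ θ t₀ :=
    AnalyticAt.fun_comp (g := tr 𝓕 i i₀) (f := fun t => (t, z)) (tr_analyticAt 𝓕 ht₀ hz hz₁3 h)
      (analyticAt_id.prod analyticAt_const)
  have hθ0 : θ t₀ = z₁ := tr_eq 𝓕 ht₀ hz₁3 h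
  have hpt : Tendsto (fun t : Cm p => (t, z)) (𝓝 t₀) (𝓝 (t₀, z)) :=
    (by fun_prop : Continuous fun t : Cm p => (t, z)).tendsto t₀
  have hθe : ∀ᶠ t in 𝓝 t₀, 𝓕.σ i₀ t (θ t) = 𝓕.σ i t z := by
    filter_upwards [hpt.eventually (tr_eventually 𝓕 ht₀ hz hz₁3 h (isOpen_ball.mem_nhds hz₁3))]
      with t ht
    exact ht.2.2.2
  -- the form is analytic, and is the derivative of `g`
  have hγa : ∀ y ∈ C, AnalyticAt ℂ γ (t₀, y) := by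
    intro y hy
    obtain ⟨wa, hwa, ea⟩ := hWa _ (hCW y hy)
    obtain ⟨wb, hwb, eb⟩ := hWb _ (hCW y hy)
    exact (gm_analytic 𝓕 ht₀ (hC3 hy) hwa ea.symm (hba t₀ ht' wa hwa)).sub
      (gm_analytic 𝓕 ht₀ (hC3 hy) hwb eb.symm (hbb t₀ ht' wb hwb))
  have hP : ∀ y ∈ C, ∀ᶠ q in 𝓝 (t₀, y), ContinuousAt (fun w => γ (q.1, w)) q.2 ∧
      HasFDerivAt (fun u => g q.1 (𝓕.σ i₀ q.1 u)) ((γ q).restrictScalars ℝ) q.2 := by
    intro y hy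
    obtain ⟨wa, hwa, ea⟩ := hWa _ (hCW y hy)
    obtain ⟨wb, hwb, eb⟩ := hWb _ (hCW y hy)
    have n1 : ∀ᶠ q : Cm p × Cm d in 𝓝 (t₀, y), q.1 ∈ T' :=
      (continuous_fst.tendsto (t₀, y)).eventually (hT'o.mem_nhds ht')
    have n2 : ∀ᶠ q : Cm p × Cm d in 𝓝 (t₀, y), q.2 ∈ ball (0 : Cm d) 3 :=
      (continuous_snd.tendsto (t₀, y)).eventually (isOpen_ball.mem_nhds (hC3 hy))
    have n3 := (continuous_fst.tendsto (t₀, y)).eventually hg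
    have n4 := (σ_tendsto 𝓕 ht₀ (hC3 hy)).eventually (hW.mem_nhds (hCW y hy))
    have n5 := tr_eventually 𝓕 ht₀ (hC3 hy) hwa ea.symm (isOpen_ball.mem_nhds hwa)
    have n6 := tr_eventually 𝓕 ht₀ (hC3 hy) hwb eb.symm (isOpen_ball.mem_nhds hwb)
    filter_upwards [n1, n2, n3, n4, n5, n6, (hγa y hy).eventually_analyticAt]
      with q m1 m2 m3 m4 m5 m6 m7
    refine ⟨?_, ?_⟩
    · have c1 : ContinuousAt γ (q.1, q.2) := m7.continuousAt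
      exact ContinuousAt.comp (g := γ) (f := fun w => (q.1, w)) c1 (by fun_prop)
    · have e1 := hasFD 𝓕 ht₀ (hT' m1) m3.1 m3.2 m2 m5.2.2.1 m6.2.2.1 m4 m5.2.2.2.symm
        m6.2.2.2.symm
      have e2 := gm_eq 𝓕 (b := ba) (hT' m1) m2 m5.2.2.1 m5.2.2.2.symm
      have e3 := gm_eq 𝓕 (b := bb) (hT' m1) m2 m6.2.2.1 m6.2.2.2.symm
      rw [← e2, ← e3] at e1
      exact e1
  -- along the moving segment
  have hseg : ∀ τ ∈ Icc (0 : ℝ) 1, z₀ + (τ : ℂ) • (θ t₀ - z₀) ∈ C := by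
    intro τ hτ
    rw [hθ0]
    have : z₀ + (τ : ℂ) • (z₁ - z₀) = (1 - τ) • z₀ + τ • z₁ := by
      rw [Complex.coe_smul]; module
    rw [this]
    exact hC hz₀ hz₁ (by linarith [hτ.2]) hτ.1 (by ring)
  have hmov : ∀ᶠ t in 𝓝 t₀, ∀ τ ∈ Icc (0 : ℝ) 1,
      ContinuousAt (fun w => γ (t, w)) (z₀ + (τ : ℂ) • (θ t - z₀)) ∧
      HasFDerivAt (fun u => g t (𝓕.σ i₀ t u))
        ((γ (t, z₀ + (τ : ℂ) • (θ t - z₀))).restrictScalars ℝ) (z₀ + (τ : ℂ) • (θ t - z₀)) := by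
    refine isCompact_Icc.eventually_forall_of_forall_eventually
      (P := fun t (τ : ℝ) => ContinuousAt (fun w => γ (t, w)) (z₀ + (τ : ℂ) • (θ t - z₀)) ∧
      HasFDerivAt (fun u => g t (𝓕.σ i₀ t u))
        ((γ (t, z₀ + (τ : ℂ) • (θ t - z₀))).restrictScalars ℝ) (z₀ + (τ : ℂ) • (θ t - z₀)))
      fun τ hτ => ?_
    have hc : ContinuousAt (fun q : Cm p × ℝ => (q.1, z₀ + (q.2 : ℂ) • (θ q.1 - z₀))) (t₀, τ) := by
      have c1 : ContinuousAt (fun q : Cm p × ℝ => θ q.1) (t₀, τ) :=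
        ContinuousAt.comp (g := θ) (f := Prod.fst) hθa.continuousAt continuousAt_fst
      have c2 : ContinuousAt (fun q : Cm p × ℝ => ((q.2 : ℝ) : ℂ)) (t₀, τ) := by fun_prop
      exact continuousAt_fst.prodMk (continuousAt_const.add (c2.smul (c1.sub continuousAt_const)))
    exact hc.tendsto.eventually (hP _ (hseg τ hτ))
  have hftc : ∀ᶠ t in 𝓝 t₀, g t (𝓕.σ i₀ t (θ t)) - g t (𝓕.σ i₀ t z₀) =
      ∫ τ in (0 : ℝ)..1, γ (t, z₀ + (τ : ℂ) • (θ t - z₀)) (θ t - z₀) := by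
    filter_upwards [hmov] with t ht
    have hs : ∀ y ∈ segment ℝ z₀ (θ t), ∃ τ ∈ Icc (0 : ℝ) 1, y = z₀ + (τ : ℂ) • (θ t - z₀) := by
      intro y hy
      rw [segment_eq_image'] at hy
      obtain ⟨τ, hτ, rfl⟩ := hy
      exact ⟨τ, hτ, by rw [Complex.coe_smul]⟩
    refine (seg_ftc (γ := fun w => γ (t, w)) (g := fun u => g t (𝓕.σ i₀ t u)) ?_ ?_).symm
    · intro y hy
      obtain ⟨τ, hτ, rfl⟩ := hs y hy
      exact (ht τ hτ).1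
    · intro y hy
      obtain ⟨τ, hτ, rfl⟩ := hs y hy
      exact (ht τ hτ).2
  have hint : AnalyticAt ℂ (fun t => ∫ τ in (0 : ℝ)..1,
      γ (t, z₀ + (τ : ℂ) • (θ t - z₀)) (θ t - z₀)) t₀ := by
    refine analyticAt_segInt (G := fun q : Cm p × ℂ =>
      γ (q.1, z₀ + q.2 • (θ q.1 - z₀)) (θ q.1 - z₀)) fun τ hτ => ?_
    have a1 : AnalyticAt ℂ (fun q : Cm p × ℂ => θ q.1) (t₀, (τ : ℂ)) :=
      AnalyticAt.fun_comp (g := θ) (f := Prod.fst) hθa analyticAt_fst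
    have a2 : AnalyticAt ℂ (fun q : Cm p × ℂ => θ q.1 - z₀) (t₀, (τ : ℂ)) :=
      a1.sub analyticAt_const
    have a3 : AnalyticAt ℂ (fun q : Cm p × ℂ => (q.1, z₀ + q.2 • (θ q.1 - z₀))) (t₀, (τ : ℂ)) :=
      analyticAt_fst.prod (analyticAt_const.add (analyticAt_snd.smul a2))
    have a4 : AnalyticAt ℂ (fun q : Cm p × ℂ => γ (q.1, z₀ + q.2 • (θ q.1 - z₀)))
        (t₀, (τ : ℂ)) :=
      AnalyticAt.fun_comp (g := γ) (hγa _ (hseg τ hτ)) a3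
    exact AnalyticAt.fun_comp (g := fun q : (Cm d →L[ℂ] ℂ) × Cm d => q.1 q.2)
      (f := fun q : Cm p × ℂ => (γ (q.1, z₀ + q.2 • (θ q.1 - z₀)), θ q.1 - z₀))
      ((ContinuousLinearMap.id ℂ (Cm d →L[ℂ] ℂ)).analyticAt_bilinear _) (a4.prod a2)
  refine hint.congr ?_
  filter_upwards [hftc, hθe] with t h1 h2
  rw [← h1, h2]

/-- A function with zero derivative on a ball, for `t` near `t₀`, has the same value at the fixed
point and along the section. -/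
theorem ev_sec {t₀ : Cm p} (ht₀ : t₀ ∈ 𝓕.T) {W : Set E} (hW : IsOpen W) {f : Cm p → E → ℂ}
    (hf : ∀ᶠ t in 𝓝 t₀, ∀ (k : Fin 𝓕.N), ∀ w ∈ ball (0 : Cm d) 3, 𝓕.σ k t₀ w ∈ W →
      HasFDerivAt (fun u => f t (𝓕.σ k t₀ u)) (0 : Cm d →L[ℝ] ℂ) w)
    {i : Fin 𝓕.N} {z : Cm d} (hz : z ∈ ball (0 : Cm d) 3) (hzW : 𝓕.σ i t₀ z ∈ W) :
    ∀ᶠ t in 𝓝 t₀, f t (𝓕.σ i t z) = f t (𝓕.σ i t₀ z) := by
  have m1 : ∀ᶠ w in 𝓝 z, w ∈ ball (0 : Cm d) 3 := isOpen_ball.mem_nhds hz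
  have m2 : ∀ᶠ w in 𝓝 z, 𝓕.σ i t₀ w ∈ W :=
    (tends (𝓕.at t₀ ht₀) i hz).eventually (hW.mem_nhds hzW)
  obtain ⟨ε, hε, hB⟩ := Metric.mem_nhds_iff.1 (m1.and m2)
  have hsec : Tendsto (fun t : Cm p => (t₀, 𝓕.σ i t z)) (𝓝 t₀) (𝓝 (t₀, 𝓕.σ i t₀ z)) := by
    have h1 : Tendsto (fun t : Cm p => 𝓕.σ i t z) (𝓝 t₀) (𝓝 (𝓕.σ i t₀ z)) :=
      (σ_tendsto 𝓕 ht₀ hz).comp
        ((by fun_prop : Continuous fun t : Cm p => (t, z)).tendsto t₀)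
    exact tendsto_const_nhds.prodMk_nhds h1
  have h2 := hsec.eventually (iv_eventually 𝓕 ht₀ hz (ball_mem_nhds z hε))
  filter_upwards [hf, h2] with t ht h2t
  obtain ⟨-, k1, k2, k3⟩ := h2t
  have hd : ∀ w ∈ ball z ε, HasFDerivAt (fun u => f t (𝓕.σ i t₀ u)) (0 : Cm d →L[ℝ] ℂ) w :=
    fun w hw => ht i w (hB hw).1 (hB hw).2
  have h5 := isOpen_ball.is_const_of_fderiv_eq_zero (convex_ball z ε).isPreconnected
    (fun u hu => (hd u hu).differentiableAt.differentiableWithinAt)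
    (fun u hu => (hd u hu).fderiv) k1 (mem_ball_self hε)
  rw [k3] at h5
  exact h5

end

section
variable {p d : ℕ} {E Γ : Type} [TopologicalSpace E] [T2Space E] [Group Γ] [Subsingleton Γ]
  [MulAction Γ E] [ContinuousConstSMul Γ E] (𝓕 : Fam p d E Γ)

/-- **B1**: the periods are holomorphic. -/
theorem b1 (hd : 0 < d) {T' : Set (Cm p)} (hT' : T' ⊆ 𝓕.T) (hT'o : IsOpen T')
    {s : Fin 𝓕.N → Cm p × Cm d → Matrix (Fin d) (Fin d) ℂ}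
    (hs : ∀ i, ∀ t ∈ T', ∀ z ∈ ball (0 : Cm d) 3, ∀ j k, AnalyticAt ℂ (fun q => s i q j k) (t, z))
    (halt : ∀ i, ∀ t ∈ T', ∀ z ∈ ball (0 : Cm d) 3, (s i (t, z)).transpose = -s i (t, z))
    (hcl : ∀ i, ∀ t ∈ T', ∀ z ∈ ball (0 : Cm d) 3, ∀ j k l, dd l (fun z => s i (t, z) j k) z +
      dd j (fun z => s i (t, z) k l) z + dd k (fun z => s i (t, z) l j) z = 0) {t₀ : Cm p}
    (ht₀ : t₀ ∈ T') {n : ℕ} (M : Mark2 (𝓕.at t₀ (hT' ht₀)) n)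
    (α : Cm p → Fin (𝓕.at t₀ (hT' ht₀)).N → Cm d → L2 d)
    (hα : ∀ t (ht : t ∈ T'), Cl2 (𝓕.at t₀ (hT' ht₀)) (α t) ∧
      Pull2 (𝓕.at t₀ (hT' ht₀)) (𝓕.at t (hT' ht)) id (α t) (fun i z => tf (s i (t, z))))
    (k : Fin n) : AnalyticAt ℂ (fun t => M.cl (α t) k) t₀ := by
  classical
  obtain ⟨A, iA, G, -⟩ := H751.TS.good d E Γ (𝓕.at t₀ (hT' ht₀)) hd 1 one_pos
  choose b hb hb' using fun j => prim_fam (T' := T') (hs j) (halt j) (hcl j)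
  have hT'e : ∀ᶠ t in 𝓝 t₀, t ∈ T' := hT'o.mem_nhds ht₀
  set sh : A → Fin 𝓕.N := fun a => G.i a with hsh
  -- the members of the covering are in the sheets at the times near `t₀`
  have hcov : ∀ a, ∀ᶠ t in 𝓝 t₀, ∀ e ∈ G.U a, ∃ w ∈ ball (0 : Cm d) 3, 𝓕.σ (sh a) t w = e := by
    intro a
    have hK : IsCompact {z | eq2 (G.c a) z ≤ G.r a ^ 2} := eq2_compact _ _
    have hK3 : ∀ z, eq2 (G.c a) z ≤ G.r a ^ 2 → z ∈ ball (0 : Cm d) 3 := by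
      intro z hz
      refine ball_subset_ball (by norm_num) (G.sub a ?_)
      rw [mem_eb]
      have := G.pos a
      nlinarith
    have h1 := hK.eventually_forall_of_forall_eventually (x₀ := t₀)
      (P := fun t y => ∃ w ∈ ball (0 : Cm d) 3, 𝓕.σ (sh a) t w = 𝓕.σ (sh a) t₀ y) (by
        intro y hy
        have hy3 := hK3 y hy
        have h2 : Tendsto (fun q : Cm p × Cm d => (q.1, 𝓕.σ (sh a) t₀ q.2)) (𝓝 (t₀, y))
            (𝓝 (t₀, 𝓕.σ (sh a) t₀ y)) := by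
          refine Tendsto.prodMk_nhds (continuous_fst.tendsto _) ?_
          exact (tends (𝓕.at t₀ (hT' ht₀)) (sh a) hy3).comp (continuous_snd.tendsto _)
        filter_upwards [h2.eventually (iv_eventually 𝓕 (hT' ht₀) hy3 (isOpen_ball.mem_nhds hy3))]
          with q hq
        exact ⟨_, hq.2.2.1, hq.2.2.2⟩)
    filter_upwards [h1] with t ht
    rintro e ⟨z, hz, rfl⟩
    exact ht z (le_of_lt hz)
  -- the forms
  set β : A → Cm p → Fin (𝓕.at t₀ (hT' ht₀)).N → Cm d → L1 d := fun a t => bt 𝓕 (b (sh a)) t₀ (sh a) t with hβ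
  have h1 : ∀ a, ∀ᶠ t in 𝓝 t₀, F1On (𝓕.at t₀ (hT' ht₀)) (G.U a) (β a t) ∧ IsD1 (𝓕.at t₀ (hT' ht₀)) (G.U a) (β a t) (α t) := by
    intro a
    filter_upwards [hcov a, hT'e] with t ht ht'
    exact bt_form 𝓕 (hT' ht₀) (hT' ht') ht (hb (sh a) t ht') (hb' (sh a) t ht')
      (fun k z hz w hw ψ hψ u v => (hα t ht').2 k (sh a) z hz w hw ψ hψ u v)
  -- the functions
  have hg0 : ∀ a a', ∃ g : Cm p → E → ℂ, ∀ᶠ t in 𝓝 t₀, SmOn (𝓕.at t₀ (hT' ht₀)) (G.U a ∩ G.U a') (g t) ∧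
      IsD0 (𝓕.at t₀ (hT' ht₀)) (G.U a ∩ G.U a') (g t) (fun k z => β a t k z - β a' t k z) := by
    intro a a'
    have h2 : ∀ t, ∃ g : E → ℂ, ((F1On (𝓕.at t₀ (hT' ht₀)) (G.U a) (β a t) ∧ IsD1 (𝓕.at t₀ (hT' ht₀)) (G.U a) (β a t) (α t)) ∧
        (F1On (𝓕.at t₀ (hT' ht₀)) (G.U a') (β a' t) ∧ IsD1 (𝓕.at t₀ (hT' ht₀)) (G.U a') (β a' t) (α t))) →
        SmOn (𝓕.at t₀ (hT' ht₀)) (G.U a ∩ G.U a') g ∧
          IsD0 (𝓕.at t₀ (hT' ht₀)) (G.U a ∩ G.U a') g (fun k z => β a t k z - β a' t k z) := by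
      intro t
      by_cases h : (F1On (𝓕.at t₀ (hT' ht₀)) (G.U a) (β a t) ∧ IsD1 (𝓕.at t₀ (hT' ht₀)) (G.U a) (β a t) (α t)) ∧
        (F1On (𝓕.at t₀ (hT' ht₀)) (G.U a') (β a' t) ∧ IsD1 (𝓕.at t₀ (hT' ht₀)) (G.U a') (β a' t) (α t))
      · obtain ⟨g, hg⟩ := H702.TS.exists_g G poin h.1.1 h.2.1 h.1.2 h.2.2
        exact ⟨g, fun _ => hg⟩
      · exact ⟨0, fun h' => absurd h' h⟩
    choose g hg using h2
    refine ⟨g, ?_⟩
    filter_upwards [h1 a, h1 a'] with t ht ht'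
    exact hg t ⟨ht, ht'⟩
  choose g0 hg0 using hg0
  -- normalised functions
  have hnorm : ∀ a a', ∃ g : Cm p → E → ℂ, (∀ᶠ t in 𝓝 t₀, SmOn (𝓕.at t₀ (hT' ht₀)) (G.U a ∩ G.U a') (g t) ∧
      IsD0 (𝓕.at t₀ (hT' ht₀)) (G.U a ∩ G.U a') (g t) (fun k z => β a t k z - β a' t k z)) ∧
      ∀ (i : Fin 𝓕.N) (z : Cm d), z ∈ ball (0 : Cm d) 3 → 𝓕.σ i t₀ z ∈ G.U a ∩ G.U a' →
        AnalyticAt ℂ (fun t => g t (𝓕.σ i t z)) t₀ := by
    intro a a'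
    set C : Set (Cm d) := {z | z ∈ eb (G.c a) (G.r a) ∧ (𝓕.at t₀ (hT' ht₀)).σ (G.i a) z ∈ G.U a'} with hCdef
    have hCc : Convex ℝ C := G.conv a a'
    have hC3 : C ⊆ ball 0 3 := fun z hz => Good_sub3 G a hz.1
    by_cases hne : C.Nonempty
    · obtain ⟨z₀, hz₀⟩ := hne
      refine ⟨fun t e => g0 a a' t e - g0 a a' t (𝓕.σ (sh a) t z₀), ?_, ?_⟩
      · filter_upwards [hg0 a a'] with t ht
        refine ⟨fun i z hz hzU => (ht.1 i z hz hzU).sub contDiffAt_const, fun i z hz hzU => ?_⟩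
        have h5 := ht.2 i z hz hzU
        rw [← h5]
        exact fderiv_sub_const _
      · rintro i z hz ⟨⟨z₁, hz₁, hzz⟩, hzU⟩
        have hz₁C : z₁ ∈ C := ⟨hz₁, by
          show (𝓕.at t₀ (hT' ht₀)).σ (G.i a) z₁ ∈ G.U a'
          rw [hzz]; exact hzU⟩
        exact an_diff 𝓕 (hT' ht₀) ((U_open G a).inter (U_open G a')) hT' hT'o ht₀
          (hb (sh a)) (hb (sh a')) (fun e he => (hcov a).self_of_nhds e he.1)
          (fun e he => (hcov a').self_of_nhds e he.2) (hg0 a a') hCc hC3 (i₀ := sh a)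
          (fun y hy => ⟨⟨y, hy.1, rfl⟩, hy.2⟩) hz₀ hz₁C hz hzz.symm
    · refine ⟨g0 a a', hg0 a a', ?_⟩
      rintro i z hz ⟨⟨z₁, hz₁, hzz⟩, hzU⟩
      exact absurd ⟨z₁, hz₁, by
          show (𝓕.at t₀ (hT' ht₀)).σ (G.i a) z₁ ∈ G.U a'
          rw [hzz]; exact hzU⟩ hne
  choose g hg hga using hnorm
  refine cl_mem (l := 𝓝 t₀) (O := An t₀) hd M (fun f f' hf he => AnalyticAt.congr hf he)
    (α := α) (hT'e.mono fun t ht => (hα t ht).1) (V := G.U) (β' := β) (g' := g)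
    (U_open G) (H89.TS.exists_mem_U G) h1 hg ?_ k
  -- the cocycle is analytic
  rintro a a' a'' e ⟨⟨⟨z, hz, hze⟩, hea'⟩, hea''⟩
  have hz3 := Good_sub3 G a hz
  have hea : e ∈ G.U a := ⟨z, hz, hze⟩
  have hze' : 𝓕.σ (sh a) t₀ z = e := hze
  have hF : AnalyticAt ℂ (fun t => g a' a'' t (𝓕.σ (sh a) t z) - g a a'' t (𝓕.σ (sh a) t z) +
      g a a' t (𝓕.σ (sh a) t z)) t₀ :=
    ((hga a' a'' (sh a) z hz3 (by rw [hze']; exact ⟨hea', hea''⟩)).sub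
      (hga a a'' (sh a) z hz3 (by rw [hze']; exact ⟨hea, hea''⟩))).add
      (hga a a' (sh a) z hz3 (by rw [hze']; exact ⟨hea, hea'⟩))
  refine AnalyticAt.congr hF ?_
  have hW : IsOpen (G.U a ∩ G.U a' ∩ G.U a'') :=
    ((U_open G a).inter (U_open G a')).inter (U_open G a'')
  have h5 := ev_sec 𝓕 (hT' ht₀) hW (f := fun t e => g a' a'' t e - g a a'' t e + g a a' t e) (by
    filter_upwards [hg a' a'', hg a a'', hg a a'] with t k1 k2 k3 j w hw hwU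
    have e1 := ((k1.1 j w hw ⟨hwU.1.2, hwU.2⟩).differentiableAt (by simp)).hasFDerivAt
    have e2 := ((k2.1 j w hw ⟨hwU.1.1, hwU.2⟩).differentiableAt (by simp)).hasFDerivAt
    have e3 := ((k3.1 j w hw ⟨hwU.1.1, hwU.1.2⟩).differentiableAt (by simp)).hasFDerivAt
    rw [k1.2 j w hw ⟨hwU.1.2, hwU.2⟩] at e1
    rw [k2.2 j w hw ⟨hwU.1.1, hwU.2⟩] at e2
    rw [k3.2 j w hw ⟨hwU.1.1, hwU.1.2⟩] at e3
    refine ((e1.sub e2).add e3).congr_fderiv ?_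
    show β a' t j w - β a'' t j w - (β a t j w - β a'' t j w) + (β a t j w - β a' t j w) = 0
    abel) hz3 (by rw [hze']; exact ⟨⟨hea, hea'⟩, hea''⟩)
  filter_upwards [h5] with t ht
  rw [hze'] at ht
  exact ht

end

end Vale.Agent.P281.H702.HK
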