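import Vale.Agent.P281.H702.HK.HF2
import Vale.Agent.P281.H751.TS.B1b

/-!
# P281, project T-HK (helper702), block B1-HK: local primitives, in every dimension (after helper751)
-/

open Set Filter Metric MeasureTheory Vale.Agent.P272.K Vale.Agent.P281.H64.TK
  Vale.Agent.P281.H64.TK.TS
open Vale.Agent.P281.H834.TS (iv tr iv_σ iv_smooth iv_eventually σ_tendsto tr_analyticAt tr_eq
  tr_eventually)
open Vale.Agent.P281.H702.TS (seg_ftc analyticAt_segInt)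
open Vale.Agent.P281.H751.TS (an_comp)
open Vale.Agent.P281.H83.HK
open scoped Topology ContDiff ComplexConjugate

noncomputable section

set_option maxSynthPendingDepth 3

namespace Vale.Agent.P281.H702.HK

section
variable {p d : ℕ}

/-- A family of complex linear forms, as real 1-forms. -/
def cB (b : Cm p × Cm d → (Cm d →L[ℂ] ℂ)) (t : Cm p) (z : Cm d) : L1 d :=
  ContinuousLinearMap.restrictScalarsL ℂ (Cm d) ℂ ℝ ℝ (b (t, z))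

theorem cB_apply (b : Cm p × Cm d → (Cm d →L[ℂ] ℂ)) (t : Cm p) (z v : Cm d) :
    cB b t z v = b (t, z) v := rfl

theorem cB_an {b : Cm p × Cm d → (Cm d →L[ℂ] ℂ)} {t : Cm p} {z : Cm d}
    (hb : AnalyticAt ℂ b (t, z)) : AnalyticAt ℂ (fun z => b (t, z)) z :=
  AnalyticAt.fun_comp (g := b) hb (AnalyticAt.prod analyticAt_const analyticAt_id)

theorem cB_smooth {b : Cm p × Cm d → (Cm d →L[ℂ] ℂ)} {t : Cm p} {z : Cm d}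
    (hb : AnalyticAt ℂ b (t, z)) : ContDiffAt ℝ ∞ (cB b t) z :=
  (ContinuousLinearMap.restrictScalarsL ℂ (Cm d) ℂ ℝ ℝ).contDiff.contDiffAt.comp z
    (((cB_an hb).contDiffAt (n := ∞)).restrict_scalars ℝ)

theorem cB_fd {b : Cm p × Cm d → (Cm d →L[ℂ] ℂ)} {t : Cm p} {z : Cm d}
    (hb : AnalyticAt ℂ b (t, z)) (u v : Cm d) :
    fderiv ℝ (cB b t) z u v = fderiv ℂ (fun z => b (t, z)) z u v := by
  have h1 : HasFDerivAt (𝕜 := ℝ) (fun z => b (t, z))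
      ((fderiv ℂ (fun z => b (t, z)) z).restrictScalars ℝ) z :=
    (cB_an hb).differentiableAt.hasFDerivAt.restrictScalars ℝ
  have h2 := (ContinuousLinearMap.restrictScalarsL ℂ (Cm d) ℂ ℝ ℝ).hasFDerivAt.comp z h1
  have h3 : fderiv ℝ (cB b t) z = _ := h2.fderiv
  rw [h3]
  rfl

theorem cB_d {b : Cm p × Cm d → (Cm d →L[ℂ] ℂ)} {t : Cm p} {z : Cm d}
    (hb : AnalyticAt ℂ b (t, z)) {m : Matrix (Fin d) (Fin d) ℂ}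
    (h : ∀ u v, fderiv ℂ (fun z => b (t, z)) z u v - fderiv ℂ (fun z => b (t, z)) z v u =
      mf m u v) (u v : Cm d) :
    fderiv ℝ (cB b t) z u v - fderiv ℝ (cB b t) z v u = tf m u v := by
  rw [cB_fd hb, cB_fd hb, h, tf_eq]

/-- **Primitives of families of closed holomorphic 2-forms.** -/
theorem prim_fam {T' : Set (Cm p)} {s : Cm p × Cm d → Matrix (Fin d) (Fin d) ℂ}
    (hs : ∀ t ∈ T', ∀ z ∈ ball (0 : Cm d) 3, ∀ j k, AnalyticAt ℂ (fun q => s q j k) (t, z))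
    (halt : ∀ t ∈ T', ∀ z ∈ ball (0 : Cm d) 3, (s (t, z)).transpose = -s (t, z))
    (hcl : ∀ t ∈ T', ∀ z ∈ ball (0 : Cm d) 3, ∀ j k l, dd l (fun z => s (t, z) j k) z +
      dd j (fun z => s (t, z) k l) z + dd k (fun z => s (t, z) l j) z = 0) :
    ∃ b : Cm p × Cm d → (Cm d →L[ℂ] ℂ),
      (∀ t ∈ T', ∀ z ∈ ball (0 : Cm d) 3, AnalyticAt ℂ b (t, z)) ∧
      ∀ t ∈ T', ∀ z ∈ ball (0 : Cm d) 3, ∀ u v, fderiv ℂ (fun z => b (t, z)) z u v -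
        fderiv ℂ (fun z => b (t, z)) z v u = mf (s (t, z)) u v := by
  have hA : ∀ t ∈ T', ∀ z ∈ ball (0 : Cm d) 3, AnalyticAt ℂ (fun q => mf (s q)) (t, z) :=
    fun t ht z hz => mf_analytic (hs t ht z hz)
  refine ⟨rad fun q => mf (s q), fun t ht z hz => rad_analytic (hA t ht) hz,
    fun t ht z hz u v => ?_⟩
  refine rad_d (A := fun q => mf (s q)) (hA t ht) (fun z hz u v => mf_alt (halt t ht z hz) u v)
    (fun z hz u v w => ?_) hz u v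
  refine mf_closed (a := fun z => s (t, z)) (fun j k => ?_) (hcl t ht z hz) u v w
  exact (AnalyticAt.fun_comp (g := fun q => s q j k) (f := fun z => (t, z)) (hs t ht z hz j k)
    (AnalyticAt.prod analyticAt_const analyticAt_id)).differentiableAt

end

section
variable {p d : ℕ} {E Γ : Type} [TopologicalSpace E] [Group Γ] [MulAction Γ E] (𝓕 : Fam p d E Γ)

/-- The transition between different times. -/
theorem tr_times {i j : Fin 𝓕.N} {t s : Cm p} (ht : t ∈ 𝓕.T) (hs : s ∈ 𝓕.T) {z w : Cm d}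
    (hz : z ∈ ball (0 : Cm d) 3) (hw : w ∈ ball (0 : Cm d) 3) (h : 𝓕.σ i t z = 𝓕.σ j s w) :
    Tr (𝓕.at t ht) (𝓕.at s hs) id i j z w (fun u => iv 𝓕 j s (𝓕.σ i t u)) := by
  obtain ⟨h1, h2⟩ := iv_smooth 𝓕 ht hs hz hw h
  refine ⟨h1, ?_, h2⟩
  show iv 𝓕 j s (𝓕.σ i t z) = w
  rw [h, iv_σ 𝓕 hs hw]

/-- The primitive `b` in the sheet `j` at time `t`, in the sheets at time `t₀`. -/
def bt (b : Cm p × Cm d → (Cm d →L[ℂ] ℂ)) (t₀ : Cm p) (j : Fin 𝓕.N) (t : Cm p) (k : Fin 𝓕.N) (z : Cm d) :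
    L1 d :=
  (cB b t (iv 𝓕 j t (𝓕.σ k t₀ z))).comp (fderiv ℝ (fun u => iv 𝓕 j t (𝓕.σ k t₀ u)) z)

/-- The chain rule for transitions between times. -/
theorem fd_iv {i j k : Fin 𝓕.N} {r s t : Cm p} (hs : s ∈ 𝓕.T) (ht : t ∈ 𝓕.T) {x y z : Cm d}
    (hy : y ∈ ball (0 : Cm d) 3) (hz : z ∈ ball (0 : Cm d) 3)
    (h' : 𝓕.σ j s y = 𝓕.σ k t z) {χ : Cm d → Cm d} (hχ : DifferentiableAt ℝ χ x) (hχy : χ x = y)
    (he : ∀ᶠ u in 𝓝 x, 𝓕.σ i r u = 𝓕.σ j s (χ u)) :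
    fderiv ℝ (fun u => iv 𝓕 k t (𝓕.σ i r u)) x =
      (fderiv ℝ (fun u => iv 𝓕 k t (𝓕.σ j s u)) y).comp (fderiv ℝ χ x) := by
  have e : (fun u => iv 𝓕 k t (𝓕.σ i r u)) =ᶠ[𝓝 x] (fun u => iv 𝓕 k t (𝓕.σ j s u)) ∘ χ := by
    filter_upwards [he] with u hu
    simp only [Function.comp, hu]
  rw [e.fderiv_eq]
  have h1 := ((iv_smooth 𝓕 hs ht hy hz h').1).differentiableAt (by simp)
  rw [← hχy] at h1 ⊢
  exact fderiv_comp x h1 hχ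

theorem bt_form {t₀ t : Cm p} (ht₀ : t₀ ∈ 𝓕.T) (ht : t ∈ 𝓕.T) {U : Set E} {j : Fin 𝓕.N}
    (hU : ∀ e ∈ U, ∃ w ∈ ball (0 : Cm d) 3, 𝓕.σ j t w = e) {b : Cm p × Cm d → (Cm d →L[ℂ] ℂ)}
    {s : Cm p × Cm d → Matrix (Fin d) (Fin d) ℂ}
    (hb : ∀ z ∈ ball (0 : Cm d) 3, AnalyticAt ℂ b (t, z))
    (hs : ∀ z ∈ ball (0 : Cm d) 3, ∀ u v, fderiv ℂ (fun z => b (t, z)) z u v -
      fderiv ℂ (fun z => b (t, z)) z v u = mf (s (t, z)) u v)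
    {α : Fin 𝓕.N → Cm d → L2 d}
    (hα : ∀ k, ∀ z ∈ ball (0 : Cm d) 3, ∀ w ∈ ball (0 : Cm d) 3, ∀ ψ,
      Tr (𝓕.at t₀ ht₀) (𝓕.at t ht) id k j z w ψ →
      ∀ u v, α k z u v = tf (s (t, w)) (fderiv ℝ ψ z u) (fderiv ℝ ψ z v)) :
    F1On (𝓕.at t₀ ht₀) U (bt 𝓕 b t₀ j t) ∧ IsD1 (𝓕.at t₀ ht₀) U (bt 𝓕 b t₀ j t) α := by
  have key : ∀ (k : Fin 𝓕.N) (z : Cm d), z ∈ ball (0 : Cm d) 3 → 𝓕.σ k t₀ z ∈ U →
      ∃ w ∈ ball (0 : Cm d) 3, 𝓕.σ k t₀ z = 𝓕.σ j t w ∧ iv 𝓕 j t (𝓕.σ k t₀ z) = w ∧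
        ContDiffAt ℝ ∞ (fun u => iv 𝓕 j t (𝓕.σ k t₀ u)) z := by
    intro k z hz hzU
    obtain ⟨w, hw, hwz⟩ := hU _ hzU
    refine ⟨w, hw, hwz.symm, ?_, (iv_smooth 𝓕 ht₀ ht hz hw hwz.symm).1⟩
    rw [← hwz, iv_σ 𝓕 ht hw]
  refine ⟨⟨?_, ?_⟩, ?_⟩
  · intro k z hz hzU
    obtain ⟨w, hw, h1, h2, h3⟩ := key k z hz hzU
    exact H864.TS.sm1 h3 (by rw [h2]; exact cB_smooth (hb w hw))
  · intro k k' z hz z' hz' hzU χ hχ v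
    obtain ⟨w, hw, h1, h2, h3⟩ := key k z hz hzU
    have h0 : 𝓕.σ k t₀ z = 𝓕.σ k' t₀ z' := by
      have := hχ.2.2.self_of_nhds
      rw [hχ.2.1] at this
      exact this
    show (cB b t (iv 𝓕 j t (𝓕.σ k t₀ z))) (fderiv ℝ (fun u => iv 𝓕 j t (𝓕.σ k t₀ u)) z v) =
      (cB b t (iv 𝓕 j t (𝓕.σ k' t₀ z')))
        (fderiv ℝ (fun u => iv 𝓕 j t (𝓕.σ k' t₀ u)) z' (fderiv ℝ χ z v))
    rw [fd_iv 𝓕 (j := k') (s := t₀) ht₀ ht hz' hw (h0 ▸ h1) (hχ.1.differentiableAt (by simp))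
      hχ.2.1 hχ.2.2, h0]
    rfl
  · intro k z hz hzU u v
    obtain ⟨w, hw, h1, h2, h3⟩ := key k z hz hzU
    have hc : ContDiffAt ℝ ∞ (cB b t) (iv 𝓕 j t (𝓕.σ k t₀ z)) := by
      rw [h2]; exact cB_smooth (hb w hw)
    have e1 := H864.TS.fd1 h3 hc u v
    have e2 := H864.TS.fd1 h3 hc v u
    have e3 := H864.TS.sd_symm h3 u v
    have e4 := cB_d (hb w hw) (hs w hw) (fderiv ℝ (fun u => iv 𝓕 j t (𝓕.σ k t₀ u)) z u)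
      (fderiv ℝ (fun u => iv 𝓕 j t (𝓕.σ k t₀ u)) z v)
    have e5 := hα k z hz w hw _ (tr_times 𝓕 ht₀ ht hz hw h1) u v
    show fderiv ℝ (fun u => (cB b t (iv 𝓕 j t (𝓕.σ k t₀ u))).comp
      (fderiv ℝ (fun u => iv 𝓕 j t (𝓕.σ k t₀ u)) u)) z u v -
      fderiv ℝ (fun u => (cB b t (iv 𝓕 j t (𝓕.σ k t₀ u))).comp
      (fderiv ℝ (fun u => iv 𝓕 j t (𝓕.σ k t₀ u)) u)) z v u = α k z u v
    rw [e1, e2, e5, ← e4, e3, h2]
    ring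

/-- The derivative of a primitive at time `t`, in the sheets at time `t`. -/
theorem hasFD [Subsingleton Γ] {t₀ t : Cm p} (ht₀ : t₀ ∈ 𝓕.T) (ht : t ∈ 𝓕.T) {W : Set E}
    {g : E → ℂ} {ja jb : Fin 𝓕.N} {ba bb : Cm p × Cm d → (Cm d →L[ℂ] ℂ)} (hg : SmOn (𝓕.at t₀ ht₀) W g)
    (hg' : IsD0 (𝓕.at t₀ ht₀) W g (fun k z => bt 𝓕 ba t₀ ja t k z - bt 𝓕 bb t₀ jb t k z))
    {i : Fin 𝓕.N} {w wa wb : Cm d} (hw : w ∈ ball (0 : Cm d) 3) (hwa : wa ∈ ball (0 : Cm d) 3)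
    (hwb : wb ∈ ball (0 : Cm d) 3) (hW : 𝓕.σ i t w ∈ W) (ha : 𝓕.σ i t w = 𝓕.σ ja t wa)
    (hb : 𝓕.σ i t w = 𝓕.σ jb t wb) :
    HasFDerivAt (fun u => g (𝓕.σ i t u))
      ((cB ba t wa).comp (fderiv ℝ (fun u => iv 𝓕 ja t (𝓕.σ i t u)) w) -
        (cB bb t wb).comp (fderiv ℝ (fun u => iv 𝓕 jb t (𝓕.σ i t u)) w)) w := by
  obtain ⟨k, v, hv, hkv⟩ : ∃ (k : Fin 𝓕.N) (v : Cm d), v ∈ ball (0 : Cm d) 3 ∧
      𝓕.σ k t₀ v = 𝓕.σ i t w := H864.TS.cov (𝓕.at t₀ ht₀) (𝓕.σ i t w)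
  obtain ⟨h1, h2⟩ := iv_smooth 𝓕 ht ht₀ hw hv hkv.symm
  have h3 : iv 𝓕 k t₀ (𝓕.σ i t w) = v := by rw [← hkv, iv_σ 𝓕 ht₀ hv]
  have hd1 := h1.differentiableAt (by simp)
  have hkW : 𝓕.σ k t₀ v ∈ W := by rw [hkv]; exact hW
  have e1 : HasFDerivAt (fun u => g (𝓕.σ k t₀ u))
      (bt 𝓕 ba t₀ ja t k v - bt 𝓕 bb t₀ jb t k v) v := by
    have h4 := ((hg k v hv hkW).differentiableAt (by simp)).hasFDerivAt
    rw [hg' k v hv hkW] at h4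
    exact h4
  rw [← h3] at e1
  have e2 := e1.comp w hd1.hasFDerivAt
  refine (e2.congr_of_eventuallyEq ?_).congr_fderiv ?_
  · filter_upwards [h2] with u hu
    simp only [Function.comp]
    rw [← hu]
  · rw [h3]
    have c : ∀ (b : Cm p × Cm d → (Cm d →L[ℂ] ℂ)) (j : Fin 𝓕.N) (wj : Cm d), wj ∈ ball (0 : Cm d) 3 →
        𝓕.σ i t w = 𝓕.σ j t wj → (bt 𝓕 b t₀ j t k v).comp
          (fderiv ℝ (fun u => iv 𝓕 k t₀ (𝓕.σ i t u)) w) =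
          (cB b t wj).comp (fderiv ℝ (fun u => iv 𝓕 j t (𝓕.σ i t u)) w) := by
      intro b j wj hwj hj
      have hkj : 𝓕.σ k t₀ v = 𝓕.σ j t wj := hkv.trans hj
      rw [fd_iv 𝓕 (j := k) (s := t₀) ht₀ ht hv hwj hkj hd1 h3 h2]
      unfold bt
      rw [hkj, iv_σ 𝓕 ht hwj]
      rfl
    rw [← c ba ja wa hwa ha, ← c bb jb wb hwb hb]
    rfl

/-- The form `b` of the sheet `j`, in the sheet `i`, at the same time. -/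
def gm (b : Cm p × Cm d → (Cm d →L[ℂ] ℂ)) (i j : Fin 𝓕.N) (q : Cm p × Cm d) : Cm d →L[ℂ] ℂ :=
  (b (q.1, tr 𝓕 i j q)).comp
    ((fderiv ℂ (tr 𝓕 i j) q).comp (ContinuousLinearMap.inr ℂ (Cm p) (Cm d)))

theorem gm_analytic {b : Cm p × Cm d → (Cm d →L[ℂ] ℂ)} {i j : Fin 𝓕.N} {t : Cm p} (ht : t ∈ 𝓕.T)
    {z w : Cm d} (hz : z ∈ ball (0 : Cm d) 3) (hw : w ∈ ball (0 : Cm d) 3)
    (h : 𝓕.σ i t z = 𝓕.σ j t w) (hb : AnalyticAt ℂ b (t, w)) :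
    AnalyticAt ℂ (gm 𝓕 b i j) (t, z) := by
  have h1 := tr_analyticAt 𝓕 ht hz hw h
  have h2 : tr 𝓕 i j (t, z) = w := tr_eq 𝓕 ht hw h
  have h3 : AnalyticAt ℂ (fun q : Cm p × Cm d => (q.1, tr 𝓕 i j q)) (t, z) :=
    analyticAt_fst.prod h1
  have h5 : AnalyticAt ℂ (fun q : Cm p × Cm d => b (q.1, tr 𝓕 i j q)) (t, z) :=
    AnalyticAt.fun_comp (g := b) (by simpa only [h2] using hb) h3
  have h6 : AnalyticAt ℂ (fderiv ℂ (tr 𝓕 i j)) (t, z) := h1.fderiv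
  have h7 : AnalyticAt ℂ (fun q => (fderiv ℂ (tr 𝓕 i j) q).comp
      (ContinuousLinearMap.inr ℂ (Cm p) (Cm d))) (t, z) := an_comp h6 analyticAt_const
  exact an_comp h5 h7

theorem gm_eq {b : Cm p × Cm d → (Cm d →L[ℂ] ℂ)} {i j : Fin 𝓕.N} {t : Cm p} (ht : t ∈ 𝓕.T)
    {z w : Cm d} (hz : z ∈ ball (0 : Cm d) 3) (hw : w ∈ ball (0 : Cm d) 3)
    (h : 𝓕.σ i t z = 𝓕.σ j t w) :
    (gm 𝓕 b i j (t, z)).restrictScalars ℝ =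
      (cB b t w).comp (fderiv ℝ (fun u => iv 𝓕 j t (𝓕.σ i t u)) z) := by
  have h1 := (tr_analyticAt 𝓕 ht hz hw h).differentiableAt.hasFDerivAt
  have h2 : tr 𝓕 i j (t, z) = w := tr_eq 𝓕 ht hw h
  have h3 : HasFDerivAt (fun u : Cm d => tr 𝓕 i j (t, u))
      ((fderiv ℂ (tr 𝓕 i j) (t, z)).comp (ContinuousLinearMap.inr ℂ (Cm p) (Cm d))) z :=
    h1.comp z (hasFDerivAt_prodMk_right t z)
  have h4 : fderiv ℝ (fun u => iv 𝓕 j t (𝓕.σ i t u)) z =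
      ((fderiv ℂ (tr 𝓕 i j) (t, z)).comp
        (ContinuousLinearMap.inr ℂ (Cm p) (Cm d))).restrictScalars ℝ :=
    (h3.restrictScalars ℝ).fderiv
  rw [h4]
  ext v
  show b (t, tr 𝓕 i j (t, z)) _ = _
  rw [h2]
  rfl

end

end Vale.Agent.P281.H702.HK
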